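import Vale.Agent.P090.Main

theorem Vale.Agent.Results.P090.NoBAP.result :
    ∃ (M : Type) (_ : MetricSpace M) (o : M),
      (∃ θ : ℝ, 0 < θ ∧ ∀ x y : M, x ≠ y → θ ≤ dist x y) ∧
      ¬ Vale.Agent.P090.BAP (Vale.Agent.P090.Free M o) :=
  Vale.Agent.P090.main
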